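import Vale.Agent.P287D.Vt.St
import Vale.Agent.P287D.Va.Nd
import Vale.Agent.P287D.Sg.Cbn
import Vale.Agent.P287D.Ad.All
import Vale.Agent.P287D.Api.Int
import Vale.Agent.P287D.D2.Rul

/-!
# P287D, row VRT: the end on the threefold
-/

set_option linter.unusedVariables false

open Set

noncomputable section

namespace Vale.Agent.P287D.Vt

variable {K K' : Type} [Field K] [Algebra ℂ K] [Field K'] [Algebra ℂ K'] {n : ℕ}
  {a a' b b' Λ : BD K}

theorem isB_le (h0 : 0 ≤ a) (h : a ≤ b) (k : IsB n b) : IsB n a := fun s hs =>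
  (k s hs).subset fun P p => ⟨p.1, fun e => p.2 (le_antisymm (e ▸ h P) (h0 P))⟩

theorem vol_two (a : BD K) : vol 2 a = I2 a a :=
  congrArg (I 2 K) (funext (Fin.forall_fin_two.2 ⟨rfl, rfl⟩))

section

variable (hK : FF K 2)
include hK

theorem i2_congr (ha : IsB 1 a) (hb : b ∈ Car K) (e : a' - a ∈ Prn K) : I2 a' b = I2 a b :=
  In.hy.cons_congr (n := 1) hK ha e (Fin.forall_fin_one.2 hb)

theorem i2_mono (ha : IsB 1 a) (ha' : IsB 1 a') (e : Psef (a' - a)) (hb : Nef b) :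
    I2 a b ≤ I2 a' b := In.hy.cons_mono (n := 1) hK ha ha' e (Fin.forall_fin_one.2 hb)

/-- only the trace on `V Λ` counts -/
theorem i2_le (ha : IsB 1 a) (ha' : IsB 1 a') (hb : Nef b) (d : Dsc Λ b)
    (e : ∀ P, On 1 Λ P → a P ≤ a' P) : I2 a b ≤ I2 a' b := by
  classical
  have k : IsB 1 fun P => if On 1 Λ P then (a' - a) P else 0 := fun s hs =>
    (In.IsB.sub ha' ha s hs).subset fun P p => ⟨p.1, fun z => p.2 (by simp only [z, ite_self])⟩
  have := In.hy.cons_nn (n := 1) hK k (Eff.of_nonneg fun P => by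
    dsimp only
    split_ifs with o
    exacts [sub_nonneg.2 (e P o), le_rfl]).psef (b := ![b]) (Fin.forall_fin_one.2 hb)
  rwa [In.hy.cons_trace hK d.smp (Z' := a' - a) (Fin.forall_fin_one.2 d) fun P o => if_pos o,
    In.hy.cons_sub hK ha' ha (Fin.forall_fin_one.2 hb.car), sub_nonneg] at this

theorem i2_pb (hK' : FF K' 2) (φ : K →ₐ[ℂ] K') (a : BD K) (hb : b ∈ Car K) :
    I2 (pb (φ : K →+* K') a) (pb (φ : K →+* K') b) = Pb.rk (φ : K →+* K') * I2 a b :=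
  (congrArg (I 2 K') (funext (Fin.forall_fin_two.2 ⟨rfl, rfl⟩))).trans
    (Pb.deg In.hy res' 2 K K' φ φ.commutes hK hK' ![a, b]
      (Fin.forall_fin_two.2 ⟨fun e => absurd rfl e, fun _ => hb⟩))

theorem prn_of_zero (ha : Smp a) (hb : Nef b) (bb : Big b) (e : I2 a b = 0) : a ∈ Prn K :=
  (prn_iff_dim hK ha).2 (by
    by_contra k
    have := (fld_nd 2 K hK a b 1 ha hb bb one_le_two).2 (Nat.one_le_iff_ne_zero.2 k)
    rw [show (fun i : Fin 2 => if i.1 < 1 then a else b) = ![a, b] from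
      funext (Fin.forall_fin_two.2 ⟨rfl, rfl⟩)] at this
    exact this.ne' e)

end

/-- **END** -/
theorem end' : END := by
  intro W _ _ hW L d H f d1 s X Θ N σ c sX bX dΘ bd hσ o k sN dN le dm nf
  have hL := s.ff
  have hS := Gm.ff_κ σ hW
  obtain ⟨N₀, s₀, e₀⟩ := smp_down hW sN le
  have oL := hW.ok_sub L
  have ok := hS.ok (On.rE σ L hσ)
  have nb : ¬ Big N₀ := fun b => by
    have e : fld N = L := le_antisymm le fun x hx =>
      fld_congr e₀ ▸ oL.mem_fld (f := ⟨x, hx⟩) b.eff (b.fld_eq ▸ trivial)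
    rw [dim, e, hL.trdeg, Cardinal.toNat_natCast] at dm
    omega
  have z₀ : I2 N₀ N₀ = 0 := vol_two N₀ ▸ le_antisymm
    (not_lt.1 fun h => nb ((Api.vol.big 2 L hL N₀ s₀.nef).2 h)) (In.hy.vol_nonneg hL s₀.nef)
  have p : 0 < I2 H H := lt_of_lt_of_le (by exact_mod_cast d1) s.deg
  have bH : Big H := (Api.vol.big 2 L hL H s.smp.nef).2 (vol_two H ▸ p)
  have r : (0 : ℝ) < Pb.rk (On.rE σ L hσ : L →+* σ.κ) := by
    have := In.hy.vol_pos hS (ok.smp s.smp).nef (Sg.big_pb _ hL hS s.smp bH)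
    rw [vol_two, i2_pb hL hS _ _ s.smp.car] at this
    exact (mul_pos_iff_of_pos_right p).1 this
  set γ := pb (On.rE σ L hσ : L →+* σ.κ) N₀ with hγ
  have sγ : Smp γ := ok.smp s₀
  have eγ : res σ N - γ ∈ Prn σ.κ := by
    rw [hγ, ← Sg.res_hor hW hσ s₀.car, ← In.hy.res_sub hW σ sN.car (oL.car s₀.car)]
    exact In.hy.res_prn hW σ e₀
  have dγ : Dsc (res σ X) γ :=
    (res'.des 2 W hW _ _ σ dN).congr (neg_sub (res σ N) γ ▸ neg_mem eγ)
  have ib := fun (Z : BD σ.κ) (h : Z ∈ Car σ.κ) => Ba.isB_car (n := 1) hS h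
  obtain ⟨u1, u2, -⟩ := a1 2 W hW σ Θ dΘ.car
  have cN := Submodule.smul_mem _ c sN.car
  have l1 : I2 (cn σ.κ 2) γ ≤ 0 := by
    refine (i2_le hS (Api.mod.isb 1 _ hS).2.1 (ib _ u1) sγ.nef dγ fun P q =>
      sub_nonpos.1 (a3 1 W hW X σ sX bX o Θ dΘ bd k P q)).trans ?_
    rw [i2_congr hS (ib _ (In.res_car σ Θ)) sγ.car u2]
    refine (i2_mono hS (ib _ (In.res_car σ Θ)) (ib _ (In.res_car σ (c • N))) ?_ sγ.nef).trans ?_
    · rw [← In.hy.res_sub hW σ cN dΘ.car]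
      exact (In.hy.res_nef hW σ nf).psef
    · rw [res'.smul 2 W hW σ c N sN.car]
      refine (In.cons_smul (n := 1) c _ ![γ]).trans_le (le_of_eq ?_)
      rw [show I 2 σ.κ (Fin.cons (res σ N) ![γ]) = _ from i2_congr hS (ib _ sγ.car) sγ.car eγ, hγ,
        i2_pb hL hS _ _ s₀.car, z₀, mul_zero, mul_zero]
  obtain ⟨g, -, hg⟩ := Cb.pb_hur 2 L σ.κ (On.rE σ L hσ) hL hS (On.rE σ L hσ).commutes
  have n0 := D2.IsS.nonneg s
  have m : pb (On.rE σ L hσ : L →+* σ.κ) (cn L 2 + dv f) ≤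
      cn σ.κ 2 + dv g + dv (On.rE σ L hσ f) := fun P => by
    obtain ⟨Q, l⟩ := Sg.down (On.rE σ L hσ) hL hS P
    have := hg P Q l
    have e1 : (1 : ℝ) ≤ P.ord ((On.rE σ L hσ : L →+* σ.κ) Q.t) := by exact_mod_cast l.e_pos
    rw [pb_add, ok.pb_dv, Pi.add_apply, Pi.add_apply, l.pb]
    simp only [RingHom.coe_coe] at *
    linarith
  have ic := In.IsB.add (In.IsB.add (Api.mod.isb 1 _ hS).2.1 (ib _ (dv_mem_Car g)))
    (ib _ (dv_mem_Car (On.rE σ L hσ f)))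
  have l2 := i2_mono hS (isB_le (pb_nonneg _ n0) m ic) ic (Eff.of_nonneg (sub_nonneg.2 m)).psef
    sγ.nef
  have iL := In.IsB.add (Api.mod.isb 1 _ hL).2.1 (Ba.isB_car hL (dv_mem_Car f))
  have e2 : I2 (cn L 2 + dv f) N₀ = I2 (cn L 2) N₀ :=
    i2_congr hL (Api.mod.isb 1 _ hL).2.1 s₀.car (by simpa using dv_mem_Prn f)
  have l3 : 0 ≤ I2 (cn L 2 + dv f) N₀ :=
    In.hy.cons_nn (n := 1) hL iL (Eff.of_nonneg n0).psef (Fin.forall_fin_one.2 s₀.nef)
  rw [i2_congr hS (Api.mod.isb 1 _ hS).2.1 sγ.car (a' := cn σ.κ 2 + dv g + dv (On.rE σ L hσ f))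
    (by rw [add_assoc, add_sub_cancel_left]; exact add_mem (dv_mem_Prn _) (dv_mem_Prn _)), hγ,
    i2_pb hL hS _ _ s₀.car, e2] at l2
  have z₁ : I2 (cn L 2) N₀ = 0 :=
    le_antisymm (nonpos_of_mul_nonpos_right (l2.trans l1) r) (e2 ▸ l3)
  have y := s.key N₀ s₀.nef
  rw [z₀, z₁, div_le_iff₀ p] at y
  have := oL.prn (prn_of_zero hL s₀ s.smp.nef bH (pow_eq_zero_iff two_ne_zero |>.1
    (le_antisymm (by simpa using y) (sq_nonneg _))))
  simpa using add_mem e₀ this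

end Vale.Agent.P287D.Vt
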