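import Vale.Agent.P287D.Vt.St
import Vale.Agent.P287D.F1.Hod
import Vale.Agent.P287D.Va.Nd
import Vale.Agent.P287D.In.Vol

/-!
# P287D, row VRT: the leaf KTE
-/

set_option linter.all false

noncomputable section

namespace Vale.Agent.P287D.Vt

open In F1

theorem kte : KTE := fun K _ _ hK Λ R ε P h1 h2 h3 h4 d o e dR q => by
  have h := In.hy
  have v2 : ∀ {p : BD K → Prop} {a b}, p a → p b → ∀ i, p (![a, b] i) := fun u v =>
    cons_mem u (cons_mem v finZeroElim)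
  have c2 := v2 h1.nef h1.nef
  have c' := fun i => (c2 i).car
  have cε := e.1.car
  have t0 : ∀ a, Dsc Λ a → qf ![Λ, Λ] ε a = cf P (Fin.cons a ![Λ, Λ]) := fun a u =>
    (h.cf_hull hK h1 (cons_mem u (v2 (.refl h1) (.refl h1))) e).symm
  have t : ∀ a, Dsc Λ a → Num (res P a) → qf ![Λ, Λ] ε a = 0 := fun a u w =>
    (t0 a u).trans (h.num_zero (h.rsd 3 K hK P) (fun _ => In.res_car P _) 0 w)
  have v : 0 < qf ![Λ, Λ] ε Λ := by
    rw [t0 Λ (.refl h1)]
    exact lt_of_lt_of_eq o (congrArg (I 3 P.κ) (funext fun i => by fin_cases i <;> rfl))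
  have r : 0 < qf ![Λ, Λ] R R := ((fld_nd 4 K hK R Λ 2 h3 h1.nef h2 (by norm_num)).2 h4.ge).trans_eq
    (congrArg (I 4 K) (funext fun i => by fin_cases i <;> rfl))
  have n : Num (res P ε) := by
    obtain ⟨c, c0, u, w⟩ := h.res_dsc hK P dR
    exact ⟨.of_smul c0 (u.nef.congr (by simpa using q)),
      .of_smul c0 (w.nef.congr (by
        rw [show c • -res P ε - (res P R - c • res P ε) = -res P R by module]
        exact neg_mem q))⟩
  have k : ∀ s : ℝ, qf ![Λ, Λ] R R * (qf ![Λ, Λ] Λ Λ + 2 * s * qf ![Λ, Λ] ε Λ) ≤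
      qf ![Λ, Λ] R Λ ^ 2 := fun s => by
    obtain ⟨m, hm⟩ := nef_dsc dR s
    have cx := add_mem h1.car ((Car K).smul_mem s cε)
    have := qf_lor h Ba.Vl.volA hK c2 h3.nef cx (add_assoc Λ _ _ ▸ h1.nef.add hm)
    rw [qf_l h hK c' h1.car cε cx, qf_r h hK c' h1.car cε h1.car, qf_r h hK c' h1.car cε cε,
      qf_r h hK c' h1.car cε h3.car, t ε e.1 n, qf_comm h hK c' h1.car cε,
      qf_comm h hK c' h3.car cε, t R d (.of_prn q)] at this
    linarith
  generalize qf ![Λ, Λ] R R = A, qf ![Λ, Λ] Λ Λ = B, qf ![Λ, Λ] ε Λ = C,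
    qf ![Λ, Λ] R Λ = E at r v k
  have := k (((E ^ 2 + 1) / A - B) / (2 * C))
  rw [show A * (B + 2 * (((E ^ 2 + 1) / A - B) / (2 * C)) * C) = E ^ 2 + 1 by
    field_simp; ring] at this
  linarith

end Vale.Agent.P287D.Vt
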