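import Vale.Agent.P287D.Vt.St
import Vale.Agent.P287D.Tk.Thr

/-!
# P287D, row VRT: a small horizontal component
-/

open Set

noncomputable section

namespace Vale.Agent.P287D.Vt

theorem sig : SIG := by
  intro W _ _ hW L h D hL s b hD h0 e
  have ok := hW.ok_sub L
  have sM := ok.smp s
  have p : 0 < I2 h h := by
    have := In.hy.vol_pos hL s.nef b
    rwa [vol, show (fun _ : Fin 2 => h) = ![h, h] from by ext i; fin_cases i <;> rfl] at this
  have nb : ¬ Big (pb (inc L) h) := fun c => (In.hy.vol_pos hW sM.nef c).ne'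
    (I_eq_zero_of_fld hW hL (fun _ => sM.car) Finset.univ (by simp) fun _ _ =>
      ⟨h, s.car, by simp⟩)
  have e' : I 3 W (Fin.cons D fun _ => pb (inc L) h) = I2 h h := by
    rw [← e]
    congr 1
    ext i
    fin_cases i <;> rfl
  have ex : ∃ σ : Pl W, D σ * vol 2 (res σ (pb (inc L) h)) ≠ 0 := by
    by_contra n
    have z : I 3 W (Fin.cons D fun _ => pb (inc L) h) = 0 :=
      finsum_eq_zero_of_forall_eq_zero fun σ => by_contra fun c => n ⟨σ, c⟩
    exact p.ne' (e' ▸ z)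
  obtain ⟨σ, hσ⟩ := ex
  have d : 0 < D σ := (h0 σ).lt_of_ne' (left_ne_zero_of_mul hσ)
  have w0 := right_ne_zero_of_mul hσ
  have o : On 2 (pb (inc L) h) σ :=
    (In.hy.vol_nonneg (Gm.ff_κ σ hW) (res_smp hW σ sM).nef).lt_of_ne' w0
  have hz : Hor L σ := fun a ha => (Tk.hor_on hW sM nb o).1 a
    (ok.mem_fld (f := ⟨a, ha⟩) s.eff (b.fld_eq ▸ trivial))
  have t := (term_le_I hW (Sg.isB_car hW hD) h0 (b := fun _ => pb (inc L) h) (fun _ => sM.nef)
    σ).trans_eq e'
  have g : vol 2 (res σ (pb (inc L) h)) = Pb.rk (On.rE σ L hz : L →+* σ.κ) * I2 h h := by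
    rw [Sg.res_hor hW hz s.car, show I2 h h = I 2 L fun _ => h from
      congrArg (I 2 L) (funext fun i => by fin_cases i <;> rfl)]
    exact Pb.deg In.hy res' 2 L σ.κ _ (On.rE σ L hz).commutes hL (Gm.ff_κ σ hW) (fun _ => h)
      fun _ _ => s.car
  refine ⟨σ, hz, d, ?_⟩
  change D σ * vol 2 (res σ (pb (inc L) h)) ≤ _ at t
  rw [g] at t w0
  have r : (1 : ℝ) ≤ Pb.rk (On.rE σ L hz : L →+* σ.κ) := by
    exact_mod_cast Nat.pos_of_ne_zero (Nat.cast_ne_zero.1 (left_ne_zero_of_mul w0))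
  nlinarith [mul_pos d p]

end Vale.Agent.P287D.Vt
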