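import Vale.Agent.P287D.Vt.St
import Vale.Agent.P287D.Sc.Xz
import Vale.Agent.P287D.Sg.Cbn
import Vale.Agent.P287D.Lk.Geos
import Vale.Agent.P287D.Lc.Sec
import Vale.Agent.P287D.Va.Nd

/-!
# P287D, row VRT: both sides extract a divisor
-/

set_option linter.unusedVariables false

open Set

noncomputable section

namespace Vale.Agent.P287D.Vt

open Sc

/-- **SMN**: small maps are isomorphisms at the horizontal places -/
def SMN : Prop := ForX fun _ _ _ H _ Y _ _ E => pg (fld (res E H)) 2 ≠ 0 →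
  ∀ Λ Γ X X', Term 3 Λ Γ → (∀ Q, On 3 Λ Q → On 3 Y Q) → Dsc Y X → Dsc Λ X' →
    (∀ Q, On 3 Y Q → X Q = X' Q) → ∀ w, Hor (fld (res E H)) w → res E X w = res E X' w

variable {K : Type} [Field K] [Algebra ℂ K] {R A Y ΓY β ε : BD K} {Λ B Γ : Fin 2 → BD K}
  {E : Fin 2 → Option (Pl K)} {i j : Fin 2} {P F : Pl K}

theorem δ_int (P Q : Pl K) : ∃ z : ℤ, P.δ Q = z := by
  by_cases h : Q = P
  exacts [⟨1, by simp [Pl.δ, h]⟩, ⟨0, by simp [Pl.δ, h]⟩]

theorem one_le_of {k k' : ℤ} {r : ℕ} {κ : ℝ} (hr : 0 < r) (hκ : 0 < κ)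
    (e : κ - ((k : ℝ) / r - k') = -(1 - 1 / (r : ℝ))) : 1 ≤ (k : ℝ) / r - k' := by
  have r0 : (0 : ℝ) < r := by exact_mod_cast hr
  have a : ((r : ℤ) - 1 : ℤ) < k - k' * r := by
    have := mul_pos hκ r0
    field_simp at e
    have : (r : ℝ) - 1 < k - k' * r := by nlinarith
    exact_mod_cast this
  have b : (r : ℝ) ≤ k - k' * r := by exact_mod_cast (by omega : (r : ℤ) ≤ k - k' * r)
  rw [le_sub_iff_add_le, le_div_iff₀ r0]
  linarith

namespace Vx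

variable (v : Vx R A Λ B Γ E i j P Y ΓY β ε)
include v

theorem dR (k : Fin 2) : Dsc (Λ k) R := (v.lk.mfs k).des.trans (v.lk.down k)

theorem onY (Q : Pl K) : On 3 Y Q ↔ dsc 4 (R - A) Q = 0 := by
  rw [v.xc.xtr.on, v.lk.zero i, v.ei, Option.some_inj, eq_comm]

theorem onj {Q : Pl K} (h : On 3 (Λ j) Q) : On 3 Y Q := (v.onY Q).2 ((v.lk.zero j Q).2 (.inl h))

theorem eps_nn : 0 ≤ ε := Pr.hart res' v.xc.fk v.eps.1.smp (v.lk.mfs j).term.big v.eps.1
  fun Q h => v.eps.2 Q h ▸ P.δ_nonneg Q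

theorem le : ΓY ≤ R - A := by
  have d := (v.xc.xtr.des.trans (v.dR i)).sub v.xc.dΓY
  obtain ⟨c, -, hc⟩ := d.neg.exists_add
  refine sub_nonpos.1 (Api.neg.neg 3 K v.xc.fk Y _ c v.xc.xtr.term.smp v.xc.xtr.term.big
    (sub_mem v.xc.dΓY.car (sub_mem v.lk.smp.car v.lk.nef.car)) ?_ fun Q h => ?_)
  · rw [show ΓY - (R - A) + c • Y = A + (-(R - ΓY) + c • Y) by abel]
    exact (v.lk.nef.add (hc c le_rfl)).nef
  · have := (v.onY Q).1 h
    rw [dsc, Pi.sub_apply] at this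
    rw [Pi.sub_apply, v.xc.xtr.term.hull.2 Q h, this]

end Vx

theorem two_of (hF : FLD) (hT : Mm.TRM) (hA : XA) (hS : SMN) (h1 : V1) (hV : VER) (hK : KTE)
    (hE : END) (hG : SIG) : TWO := by
  intro K _ _ R A Λ B Γ E i j P Y ΓY β ε F v ej d H f d1 s
  have x := v.xc
  have fk := x.fk
  have fW : FF P.κ 3 := Gm.ff_κ P fk
  have m := v.lk.mfs j
  have t := m.term
  have am := (v.lk.ext j F ej).1
  have offF : ¬ On 3 (Λ j) F := let ⟨_, _, y⟩ := (v.lk.ext j F ej).2; y.off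
  have dε : Dsc R ε :=
    am.dsc_iff.1 (hV K fk _ _ _ R ε P m v.lk.smp v.dim (v.lk.down j) v.on v.vert v.eps)
  have diε : Dsc (Λ i) ε := (v.dR i).trans dε
  have dY : Dsc Y (ε - β) := (x.xtr.des.trans diε).sub x.hull.1
  have cε := dε.car
  have cβ := x.hull.1.car
  have cj := t.hull.1.car
  have cY := x.dΓY.car
  have cR := v.lk.smp.car
  have cA := v.lk.nef.car
  have cas : ∀ Q, On 3 Y Q → On 3 (Λ j) Q ∨ Q = F := fun Q h => by
    simpa [ej, eq_comm] using (v.lk.zero j Q).1 ((v.onY Q).1 h)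
  have z : ∀ Q, On 3 (Λ j) Q → (ε - β) Q = 0 := fun Q h => by
    rw [Pi.sub_apply, v.eps.2 Q h, x.hull.2 Q (v.onj h), sub_self]
  have oF : On 3 Y F := (v.onY F).2 ((v.lk.zero j F).2 (.inr ej))
  have zF : (ε - β) F = ε F := by
    have : F ≠ P := fun e => offF (e ▸ v.on)
    simp [x.hull.2 F oF, Pl.δ, this]
  have n0 : 0 ≤ ε - β := Pr.hart res' fk x.xtr.term.smp x.xtr.term.big dY fun Q h => by
    rcases cas Q h with o | rfl
    exacts [(z Q o).ge, zF ▸ v.eps_nn _]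
  obtain ⟨h, sh, bh, eh⟩ := fld_down fW x.smpH
  have ch := (fW.ok_sub _).car sh.car
  have dh : Dsc (res P (Λ i)) (pb (inc _) h) :=
    (Dsc.refl x.smpH).congr (by simpa using neg_mem eh)
  have pg0 : pg (fld (res P (Λ i))) 2 ≠ 0 := Sg.NU.pg ⟨f, s.ne, D2.IsS.nonneg s⟩ s.ff
  obtain ⟨σ, hσ, τ0, τ1⟩ := hG _ fW _ h (res P (ε - β)) x.ff sh bh (In.res_car _ _)
    (res'.nn 3 K fk P _ dY.car n0 (z P v.on)) (by
      rw [Ae.res_sub res' fk cε cβ, Lc.i3_sub In.hy fW (Sg.isB_car fW (In.res_car _ _))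
        (Sg.isB_car fW (In.res_car _ _)) ch ch, x.I3_eq hF hT hA sh.car sh.car,
        show I3 (res P ε) (pb (inc _) h) (pb (inc _) h) = 0 from
          I_eq_zero_of_dsc (Λ := res P (Λ i)) fW
            (vec3 (p := (· ∈ Car _)) (In.res_car _ _) ch ch) Finset.univ
            (by rw [show dim (res P (Λ i)) = 2 from x.cd]; simp)
            fun k _ => vec3 (p := Dsc _) (res'.des 3 K fk _ _ P diε) dh dh k]
      ring)
  have κ0 : 0 < res P (ΓY - Γ j) σ := by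
    have a0 := t.pos F offF
    have e := hS K _ _ _ _ _ _ x pg0 _ _ (ε F • ΓY - dsc 4 (Γ j) F • (ε - β)) (ε F • Γ j) t
      (fun Q => v.onj) ((x.dΓY.smul _).sub (dY.smul _)) (t.hull.1.smul _) (fun Q q => by
        have := x.xtr.term.hull.2 Q q
        rcases cas Q q with o | rfl
        · simp only [Pi.sub_apply (ε F • ΓY), Pi.smul_apply, z Q o, this, t.hull.2 Q o]
          simp
        · simp only [Pi.sub_apply (ε Q • ΓY), Pi.smul_apply, zF, this, dsc, Pi.sub_apply (cn K 4),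
            smul_eq_mul]
          ring) σ hσ
    rw [Ae.res_sub res' fk (Submodule.smul_mem _ _ cY) (Submodule.smul_mem _ _ dY.car),
      res'.smul 3 K fk P _ _ cY, res'.smul 3 K fk P _ _ dY.car, res'.smul 3 K fk P _ _ cj] at e
    rw [Ae.res_sub res' fk cY cj]
    simp only [Pi.sub_apply, Pi.smul_apply, smul_eq_mul] at e ⊢
    have := mul_pos a0 τ0
    have : 0 ≤ ε F := v.eps_nn F
    by_contra c
    nlinarith
  have hu : Hull 3 (Λ j) (cn K 4 + P.δ) (Γ j + ε) := t.hull.add v.eps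
  have e0 : dsc 3 (adj 3 P (Γ j + ε)) σ = res P (ΓY - Γ j) σ - res P (ε - β) σ := by
    have a := (a4 3 K fk P _ x.hull'.1.car _ (sub_mem dY.car (sub_mem cY cj))).1
    have b := x.dsc0 hF hT hA hσ
    rw [show ΓY + β + (ε - β - (ΓY - Γ j)) = Γ j + ε by abel,
      Ae.res_sub res' fk dY.car (sub_mem cY cj)] at a
    rw [a]
    simp only [dsc, Pi.sub_apply, Pi.add_apply] at b ⊢
    linarith
  have sj := In.hy.res_smp fk P t.smp
  have bj := (res'.on 3 K fk _ P t.smp).1 v.on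
  have bd : Bdy 2 (res P (Λ j)) (adj 3 P (Γ j + ε)) := a3 2 K fk _ P t.smp t.big v.on _ hu.1
    (fun Q q => by
      rw [dsc, Pi.sub_apply, hu.2 Q q, Pi.add_apply]
      linarith [show 0 ≤ P.δ Q from P.δ_nonneg Q])
    (by rw [dsc, Pi.sub_apply, hu.2 P v.on, Pi.add_apply, Pl.δ_self]; ring)
  have k1 : -1 < dsc 3 (adj 3 P (Γ j + ε)) σ := by linarith
  have oσ : On 2 (res P (Λ j)) σ := Sg.NU.on uni' (Sg.NU.hor ⟨f, s.ne, D2.IsS.nonneg s⟩ fW s.ff hσ)
    fW sj bj (Sg.dsc_adj fk hu.1) bd k1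
  have τ2 : 1 ≤ res P (ε - β) σ := by
    obtain ⟨r, r0, a, b⟩ := a6 2 K fk _ P t.smp t.big v.on _ hu σ oσ k1
    obtain ⟨r', r0', a', b'⟩ := a6 2 K fk _ P x.xtr.term.smp x.xtr.term.big x.onE _ x.hull' σ
      (x.on_hor hσ) (by rw [x.dsc0 hF hT hA hσ]; norm_num)
    obtain ⟨k, hk⟩ := (b ε v.eps.1 fun Q q => v.eps.2 Q q ▸ δ_int P Q).1
    obtain ⟨k', hk'⟩ := (b' β x.hull.1 fun Q q => x.hull.2 Q q ▸ δ_int P Q).1
    have : (r' : ℝ) = 1 := by
      rw [x.dsc0 hF hT hA hσ] at a'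
      have : (0 : ℝ) < r' := by exact_mod_cast r0'
      field_simp at a'
      linarith
    rw [this, div_one] at hk'
    rw [e0] at a
    rw [Ae.res_sub res' fk cε cβ, Pi.sub_apply, hk, hk'] at a ⊢
    exact one_le_of r0 κ0 a
  obtain ⟨G, g, g0⟩ := v.lk.nef.exists_rep (finite_singleton P)
  have cG : G ∈ Car K := by simpa using add_mem (Prn_le_Car g.2) cA
  have pD : G + (R - A) - Γ j - (R - Γ j) ∈ Prn K := by
    rw [show G + (R - A) - Γ j - (R - Γ j) = G - A by abel]; exact g.2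
  have dD : Dsc (Λ j) (G + (R - A) - Γ j) := ((v.dR j).sub t.hull.1).congr pD
  have vD : ∀ Q, On 3 (Λ j) Q → (G + (R - A) - Γ j) Q = G Q := fun Q q => by
    have := (v.onY Q).1 (v.onj q)
    simp only [dsc, Pi.sub_apply, Pi.add_apply, t.hull.2 Q q] at this ⊢
    linarith
  have nD := res'.nn 3 K fk P _ dD.car
    (Pr.hart res' fk t.smp t.big dD fun Q q => vD Q q ▸ g.1 Q) ((vD P v.on).trans (g0 P rfl))
  have lD : res P (ΓY - Γ j) σ ≤ res P (G + (R - A) - Γ j) σ := by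
    have c1 := sub_mem (sub_mem cR cA) cY
    have a := res'.nn 3 K fk P _ cG g.1 (g0 P rfl) σ
    have b := res'.nn 3 K fk P _ c1 (sub_nonneg.2 v.le) (by
      have := (v.onY P).1 x.onE
      simp only [dsc, Pi.sub_apply, x.xtr.term.hull.2 P x.onE] at this ⊢
      linarith) σ
    rw [show G + (R - A) - Γ j = G + (R - A - ΓY) + (ΓY - Γ j) by abel,
      res'.add 3 K fk P _ (add_mem cG c1) _ (sub_mem cY cj), res'.add 3 K fk P _ cG _ c1]
    simp only [Pi.add_apply, Pi.zero_apply] at a b ⊢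
    linarith
  obtain ⟨D, hD⟩ : ∃ D, D = G + (R - A) - Γ j := ⟨_, rfl⟩
  rw [← hD] at pD dD nD lD
  have m0 := κ0.trans_le lD
  obtain ⟨u, hu'⟩ : ∃ u, u = res P (ΓY - Γ j) σ / res P D σ := ⟨_, rfl⟩
  have u0 : 0 < u := hu' ▸ div_pos κ0 m0
  have u1 : u ≤ 1 := hu' ▸ (div_le_one m0).2 lD
  have dΘ : Dsc (Λ j) (Γ j + ε + u • D) := hu.1.add (dD.smul u)
  have eΘ : adj 3 P (Γ j + ε + u • D) = adj 3 P (Γ j + ε) + u • res P D := by
    rw [(a4 3 K fk P _ hu.1.car _ (dD.smul u).car).1, res'.smul 3 K fk P _ _ dD.car]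
  obtain ⟨c, hc⟩ := Lk.amp_large m.neg am.dsc' (v.dR j)
  obtain ⟨c', -, hc'⟩ := dε.neg.exists_add
  have nf : Nef (((1 - u) * c + c' + u) • R - (Γ j + ε + u • D)) :=
    ((((hc c le_rfl).smp.smul (sub_nonneg.2 u1)).add (hc' c' le_rfl)).congr (by
      refine (congrArg (· ∈ Prn K) ?_).mp (Submodule.smul_mem _ (-u) pD)
      module)).nef
  refine hK K fk (Λ j) R ε P t.smp t.big v.lk.smp v.dim (v.dR j) v.on v.eps dε
    (hE _ fW _ d H f d1 s _ (adj 3 P (Γ j + ε + u • D)) _ σ ((1 - u) * c + c' + u) sj bj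
      (Sg.dsc_adj fk dΘ) (fun Q q => ?_) hσ oσ ?_ (In.hy.res_smp fk P v.lk.smp)
      (res'.des 3 K fk _ _ P (v.dR j)) (res'.des 3 K fk _ _ P (v.dR i)).fld_le
      (Nat.le_of_lt_succ ((h1 3 K fk R P v.lk.smp v.vert).trans_eq v.dim)) ?_)
  · have a := bd Q q
    have b := mul_nonneg u0.le (nD Q)
    simp only [eΘ, dsc, Pi.sub_apply, Pi.add_apply, Pi.smul_apply, smul_eq_mul] at a b ⊢
    linarith
  · have b : u * res P D σ = res P (ΓY - Γ j) σ := by rw [hu', div_mul_cancel₀ _ m0.ne']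
    simp only [eΘ, dsc, Pi.sub_apply, Pi.add_apply, Pi.smul_apply, smul_eq_mul] at e0 ⊢
    linarith
  · have a := res'.nef 3 K fk P _ nf
    rw [Ae.res_sub res' fk (Submodule.smul_mem _ _ cR) dΘ.car, res'.smul 3 K fk P _ _ cR] at a
    exact a.congr (by simpa using neg_mem (a1 3 K fk P _ dΘ.car).2.1)

end Vale.Agent.P287D.Vt
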