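import Vale.Agent.P287D.Vt.St
import Vale.Agent.P287D.Va.Nd
import Vale.Agent.P287D.Dp.Rk
import Vale.Agent.P287D.Api.Zar

/-!
# P287D, row VRT: vertical places
-/

set_option linter.all false

open Set

noncomputable section

namespace Vale.Agent.P287D.Vt

variable {K : Type} [Field K] [Algebra ℂ K] {n : ℕ} {Λ B Γ R β ε : BD K} {P : Pl K}

theorem zero_cons (hK : FF K (n + 1)) (d : Dsc R β) {b : Fin n → BD K} (hb : ∀ i, b i ∈ Car K)
    (J : Finset (Fin n)) (hJ : dim R ≤ J.card) (h : ∀ i ∈ J, Dsc R (b i)) :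
    I (n + 1) K (Fin.cons β b) = 0 := by
  refine I_eq_zero_of_dsc (Λ := R) hK (In.cons_mem d.car hb) (insert 0 (J.map (Fin.succEmb n))) ?_
    fun i hi => ?_
  · rw [Finset.card_insert_of_notMem (by simp [Fin.succ_ne_zero]), Finset.card_map]
    omega
  · rcases Finset.mem_insert.1 hi with rfl | e
    · exact d
    · obtain ⟨j, a, rfl⟩ := Finset.mem_map.1 e
      exact h j a

theorem card_lt {k : ℕ} (h : k ≤ n) : (Finset.univ.filter fun i : Fin n => i.1 < k).card = k := by
  rw [Fin.card_filter_val_lt, min_eq_right h]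

theorem cd_lt (hK : FF K (n + 1)) (hR : Smp R) (h : ¬ Hor (fld R) P) : cd R P < dim R := by
  by_contra! c
  obtain ⟨G, r, g⟩ : ∃ G, Rep R G ∧ G P ≠ 0 := by
    simpa using mt (hor_iff_rep hK hR).2 h
  obtain ⟨s, -, t, -, o, -⟩ := Api.mod.ex n K hK {P} ∅ (finite_singleton P) finite_empty
    (empty_subset _)
  have l : dim R ≤ n := c.trans (cd_le hK R P)
  let b : Fin n → BD K := fun i => if i.1 < dim R then R else mx s
  have nb : ∀ i, Nef (b i) := fun i => by
    simp only [b]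
    split_ifs
    exacts [hR.nef, (smp_mx s).nef]
  have p := (fld_nd n _ (Gm.ff_κ P hK) (res P R) (res P (mx s)) (dim R) (In.hy.res_smp hK P hR)
    (In.hy.res_nef hK P (smp_mx s).nef) ((on_iff_big hK P (smp_mx s).nef).1 (o P rfl)) l).2 c
  have q := term_le_I hK (Ba.isB_car hK (r.car hR.car)) r.1 nb P
  rw [In.hy.cons_congr hK (Ba.isB_car hK hR.car) r.2 fun i => (nb i).car,
    zero_cons hK (.refl hR) (fun i => (nb i).car) _ (card_lt l).ge fun i hi => by
      simp only [b, if_pos (Finset.mem_filter.1 hi).2]; exact .refl hR] at q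
  refine q.not_gt (mul_pos ((r.1 P).lt_of_ne g.symm) (p.trans_eq (congrArg _ ?_)))
  funext i
  simp only [b]
  split_ifs <;> rfl

/-- **V1** -/
theorem v1 : V1 := fun _ _ _ _ hK _ _ hR h => cd_lt hK hR h

/-- a vertical prime divisor of a Mori fibre space comes from the base -/
theorem ver_gen (hK : FF K (n + 1)) (m : MFS n Λ B Γ) (h : ¬ Hor (fld B) P)
    (u : Hull n Λ P.δ ε) : Dsc B ε := by
  have sΛ := m.term.smp
  obtain ⟨x, hx⟩ := Dp.pic_split (Module.finite_of_finrank_eq_succ m.rk) m.smp m.des m.rk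
    m.term.hull.1 (Dp.mfs_not m) u.1
  obtain ⟨c, a⟩ := m.neg
  have l : dim B ≤ n := by
    have := dim_le hK B
    have := mt (big_iff_dim hK m.smp.eff).2 m.nbig
    omega
  let v : Fin (n + 1) → BD K := fun i => if i.1 < dim B then B else Λ
  have dv' : ∀ i, Dsc Λ (v i) ∧ Nef (v i) := fun i => by
    simp only [v]
    split_ifs
    exacts [⟨m.des, m.smp.nef⟩, ⟨.refl sΛ, sΛ.nef⟩]
  let b : Fin n → BD K := fun i => v (Fin.rev i.succ)
  have bc : ∀ i, b i ∈ Car K := fun i => (dv' _).1.car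
  let J : Finset (Fin n) := (Finset.univ.filter fun i : Fin n => i.1 < dim B).map
    Fin.revPerm.toEmbedding
  have jc : J.card = dim B := by rw [Finset.card_map, card_lt l]
  have jb : ∀ i ∈ J, b i = B := fun i hi => by
    obtain ⟨j, e, rfl⟩ := Finset.mem_map.1 hi
    exact if_pos (by simpa [Fin.rev_succ] using (Finset.mem_filter.1 e).2)
  have z : ∀ β, Dsc B β → I (n + 1) K (Fin.cons β b) = 0 := fun β d =>
    zero_cons hK d bc J jc.ge fun i hi => by rw [jb i hi]; exact .refl m.smp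
  have e0 : I (n + 1) K (Fin.cons ε b) = 0 := by
    rw [← In.hy.cf_hull hK sΛ (fun i => (dv' _).1) u]
    exact I_eq_zero_of_dsc (Λ := res P B) (Gm.ff_κ P hK) (fun _ => In.res_car _ _) J
      (jc ▸ cd_lt hK m.smp h) fun i hi => by
        change Dsc _ (res P (b i))
        rw [jb i hi]; exact .refl (In.hy.res_smp hK P m.smp)
  have p : 0 < I (n + 1) K (Fin.cons Λ b) := by
    have := (fld_nd _ K hK B Λ (dim B) m.smp sΛ.nef m.term.big (by omega)).2 le_rfl
    rw [← In.hy.perm _ K hK v Fin.revPerm fun i => (dv' i).1.car] at this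
    refine this.trans_eq (congrArg _ (funext (Fin.cases (if_neg ?_) fun _ => rfl)))
    simpa using l
  obtain ⟨δ, d0, d1⟩ := a.2
  have i : ∀ {β}, β ∈ Car K → IsB n β := Ba.isB_car hK
  have gc := m.term.hull.1.car
  have q := In.hy.cons_nn hK (i d1.car) d1.eff.psef fun j => (dv' (Fin.rev j.succ)).2
  have w := z _ hx
  rw [In.hy.cons_sub hK (i u.1.car) (In.IsB.smul (i gc) x) bc, In.cons_smul, e0] at w
  change 0 ≤ I (n + 1) K (Fin.cons _ b) at q
  rw [In.hy.cons_sub hK (i a.car) (In.IsB.smul (i sΛ.car) δ) bc,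
    In.hy.cons_sub hK (In.IsB.smul (i m.smp.car) c) (i gc) bc, z _ ((Dsc.refl m.smp).smul c),
    In.cons_smul] at q
  have := mul_pos d0 p
  have x0 : x = 0 := (mul_eq_zero.1 (by linarith : x * I (n + 1) K (Fin.cons Γ b) = 0)).resolve_right
    (by linarith)
  simpa [x0] using hx

/-- **VER** -/
theorem ver : VER := fun _ _ _ hK _ _ _ _ _ _ m _ _ d _ h u =>
  ver_gen hK m (fun k => h fun a ha => k a (d.fld_le ha)) u

end Vale.Agent.P287D.Vt
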