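import Vale.Agent.P287D.Vt.One
import Vale.Agent.P287D.Vt.Two
import Vale.Agent.P287D.Vt.Ver
import Vale.Agent.P287D.Vt.Sig
import Vale.Agent.P287D.Vt.Kte
import Vale.Agent.P287D.Vt.End
import Vale.Agent.P287D.Api.All

/-!
# P287D: the row VRT
-/

set_option linter.all false

namespace Vale.Agent.P287D.Vt

variable {n : ℕ} {K : Type} [Field K] [Algebra ℂ K]

theorem can_le (hK : FF K (n + 1)) {Λ Λ' Γ Γ' X : BD K} (t : Term n Λ Γ) (t' : Term n Λ' Γ')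
    (o : ∀ Q, On n Λ Q → On n Λ' Q) (d : Dsc Λ (X - Γ)) (k : Nef (X - Γ')) : Γ ≤ Γ' := by
  obtain ⟨c, -, hc⟩ := d.neg.exists_add
  refine sub_nonpos.1 (Pr.neg res' hK (c := c) t.smp t.big (sub_mem t.hull.1.car t'.hull.1.car) ?_
    fun Q h => by rw [Pi.sub_apply, t.hull.2 Q h, t'.hull.2 Q (o Q h), sub_self])
  rw [show Γ - Γ' + c • Λ = X - Γ' + (-(X - Γ) + c • Λ) by abel]
  exact k.add (hc c le_rfl).nef

/-- the two sides of a link do not extract the same divisor -/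
theorem ext_ne (hK : FF K (n + 1)) {R A : BD K} {Λ B Γ : Fin 2 → BD K} {E : Fin 2 → Option (Pl K)}
    (h : Link n R A Λ B Γ E) {P : Pl K} : ¬ ∀ i, E i = some P := fun e => by
  have a := fun i => (h.ext i P (e i)).1
  choose c hc using fun i => Lk.amp_large (h.mfs i).neg (a i).dsc' ((h.mfs i).des.trans (h.down i))
  have b := fun i => hc i (max (c 0) (c 1)) (by fin_cases i <;> simp)
  have l : ∀ i j, Γ i ≤ Γ j := fun i j => can_le hK (h.mfs i).term (h.mfs j).term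
    (fun Q o => ((h.zero j Q).1 ((h.zero i Q).2 (.inl o))).resolve_right fun z => by
      obtain rfl := Option.some.inj ((e j).symm.trans z)
      obtain ⟨-, Y, ΓY, x⟩ := h.ext i P (e i)
      exact x.off o) (b i).1 (b j).nef
  exact h.ne ⟨(b 0).trans (le_antisymm (l 0 1) (l 1 0) ▸ (b 1).symm), (a 0).trans (a 1).symm⟩

theorem vrt_of (xl : Sc.XL) (h1 : ONE) (h2 : TWO) : VRT := by
  refine ⟨1, fun d hd S hS K _ _ hK _ R A Λ B Γ E h r i P e v c ⟨L, sL, rL⟩ => ?_⟩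
  obtain ⟨H, f, s⟩ := hS.isS L sL
  have p := s.pg_ne Ba.mod
  obtain ⟨j, n, a⟩ : ∃ j, i ≠ j ∧ ∀ k, k = i ∨ k = j := ⟨i + 1, by fin_cases i <;> decide⟩
  cases u : E j with
  | none => exact h1 K hK R A Λ B Γ E h r i j P n e u v c L s.ff p rL
  | some F =>
    obtain ⟨-, Y, ΓY, x⟩ := h.ext i P e
    obtain ⟨-, β, hu, -⟩ := x.anti
    have y : Sc.Xc (Λ i) (Γ i) Y ΓY β P := ⟨hK, (h.mfs i).term, x, hu, c⟩
    obtain rfl := xl K _ _ _ _ _ P y L s.ff p rL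
    have o := ((h.zero j P).1 ((h.zero i P).2 (.inr e))).resolve_right fun z =>
      ext_ne hK h fun k => (a k).elim (· ▸ e) (· ▸ z)
    obtain ⟨ε, -, w⟩ := (h.mfs j).qf P o
    exact h2 K R A Λ B Γ E i j P Y ΓY β ε F ⟨h, r, n, e, v, y, o, w⟩ u d H f hd s

theorem smn : SMN := fun _ _ _ _ _ _ _ _ _ x p _ _ _ _ t o d d' e _ w =>
  Sm.smn Api.trm x p t.smp (fun P k => .of_term t (mt (o P) k)) d d' e w

/-- **VRT** -/
theorem vrt : VRT :=
  vrt_of (Sc.xl_of (Sc.xq_of fld' Api.trm (Sc.xa_of Api.trm))) (one_of Api.trm)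
    (two_of fld' Api.trm (Sc.xa_of Api.trm) smn v1 ver kte end' sig)

end Vale.Agent.P287D.Vt
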