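import Vale.Agent.P287D.Sc.St

/-!
# P287D, row VRT: vertical divisors with a surface centre (statements)
-/

set_option linter.unusedVariables false

open Set

noncomputable section

namespace Vale.Agent.P287D.Vt

/-- a link over a surface, `P` is extracted on the side `i` and is a vertical prime divisor of the
side `j`; `β`, `ε` are its pull backs from `V Y` and from `V (Λ j)` -/
structure Vx {K : Type} [Field K] [Algebra ℂ K] (R A : BD K) (Λ B Γ : Fin 2 → BD K)
    (E : Fin 2 → Option (Pl K)) (i j : Fin 2) (P : Pl K) (Y ΓY β ε : BD K) : Prop where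
  lk : Link 3 R A Λ B Γ E
  dim : dim R = 2
  ne : i ≠ j
  ei : E i = some P
  vert : ¬ Hor (fld R) P
  xc : Sc.Xc (Λ i) (Γ i) Y ΓY β P
  on : On 3 (Λ j) P
  eps : Hull 3 (Λ j) P.δ ε

/-- **V1**: the centre of a vertical place is a proper subvariety -/
def V1 : Prop := ForS fun _ K _ _ => ∀ (R : BD K) (P : Pl K), Smp R → ¬ Hor (fld R) P →
  cd R P < dim R

/-- **VER**: a vertical prime divisor of a Mori fibre space comes from the base -/
def VER : Prop := ∀ (K : Type) [Field K] [Algebra ℂ K], FF K 4 → ∀ (Λ B Γ R ε : BD K) (P : Pl K),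
  MFS 3 Λ B Γ → Smp R → dim R = 2 → Dsc B R → On 3 Λ P → ¬ Hor (fld R) P → Hull 3 Λ P.δ ε →
  Dsc B ε

/-- **ONE**: the other side is a conic bundle or changes the surface -/
def ONE : Prop := ∀ (K : Type) [Field K] [Algebra ℂ K], FF K 4 → ∀ (R A : BD K) Λ B Γ E,
  Link 3 R A Λ B Γ E → dim R = 2 → ∀ i j P, i ≠ j → E i = some P → E j = none →
  ¬ Hor (fld R) P → cd (Λ i) P = 2 → ∀ L : IntermediateField ℂ P.κ, FF L 2 → pg L 2 ≠ 0 →
  Ruled L → False

/-- **KTE**: a prime divisor which comes from the surface does not lie over a point -/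
def KTE : Prop := ∀ (K : Type) [Field K] [Algebra ℂ K], FF K 4 → ∀ (Λ R ε : BD K) (P : Pl K),
  Smp Λ → Big Λ → Smp R → dim R = 2 → Dsc Λ R → On 3 Λ P → Hull 3 Λ P.δ ε → Dsc R ε →
  res P R ∉ Prn P.κ

/-- **END**: a threefold pair which is negative over a curve has no component of coefficient one
which dominates a surface of type S -/
def END : Prop := ∀ (W : Type) [Field W] [Algebra ℂ W], FF W 3 →
  ∀ (L : IntermediateField ℂ W) (d : ℕ) (H : BD L) (f : L), 1 ≤ d → IsS d L H f →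
  ∀ (X Θ N : BD W) (σ : Pl W) (c : ℝ), Smp X → Big X → Dsc X Θ → Bdy 2 X Θ → Hor L σ → On 2 X σ →
  dsc 3 Θ σ = -1 → Smp N → Dsc X N → fld N ≤ L → dim N ≤ 1 → Nef (c • N - Θ) → N ∈ Prn W

/-- **SIG**: a Cartier class of degree one on the generic fibre has a small horizontal component -/
def SIG : Prop := ∀ (W : Type) [Field W] [Algebra ℂ W], FF W 3 →
  ∀ (L : IntermediateField ℂ W) (h : BD L) (D : BD W), FF L 2 → Smp h → Big h → D ∈ Car W → 0 ≤ D →
  I3 D (pb (inc L) h) (pb (inc L) h) = I2 h h → ∃ σ, Hor L σ ∧ 0 < D σ ∧ D σ ≤ 1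

/-- **TWO**: both sides extract a divisor -/
def TWO : Prop := ∀ (K : Type) [Field K] [Algebra ℂ K] (R A : BD K) Λ B Γ E i j P Y ΓY β ε F,
  Vx R A Λ B Γ E i j P Y ΓY β ε → E j = some F → ∀ (d : ℕ) (H : BD (fld (res P (Λ i)))) f, 1 ≤ d →
  IsS d (fld (res P (Λ i))) H f → False

end Vale.Agent.P287D.Vt
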