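import Vale.Agent.P287D.Dp.Rk
import Vale.Agent.P287D.Oe.Red
import Vale.Agent.P287D.Sc.Xl
import Vale.Agent.P287D.Lc.Pg
import Vale.Agent.P287D.Ad.All
import Vale.Agent.P287D.Va.Des
import Vale.Agent.P287D.Vt.St
import Vale.Agent.P287D.Sm.Nh

/-!
# P287D, block VT: a vertical divisor which lives on the other side
-/

set_option linter.all false

open Set

noncomputable section

namespace Vale.Agent.P287D.Vt

variable {n : ℕ} {K : Type} [Field K] [Algebra ℂ K] {Λ B Γ G ε H Γ' Y ΓY β : BD K} {P : Pl K}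
  {c : ℝ}

/-- the pull back of a vertical prime divisor comes from the base -/
theorem vdsc (hK : FF K (n + 1)) (M : MFS n Λ B Γ) (u : Hull n Λ P.δ ε) (r : Rep B G)
    (h : 0 < G P) : Dsc B ε := by
  obtain ⟨c, a⟩ := M.neg
  obtain ⟨x, d⟩ := Dp.pic_split (Module.finite_of_finrank_pos (M.rk ▸ Nat.succ_pos _ : 0 < rho Λ))
    M.smp M.des M.rk M.term.hull.1 (Dp.mfs_not M) u.1
  have b := a.big_iff.1 M.term.big
  have dB := Dsc.refl M.smp
  rcases lt_trichotomy x 0 with x0 | rfl | x0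
  · refine (M.nbig (((dB.sub (d.smul (G P))).sub (dB.smul (G P * x * c))).big ?_)).elim
    convert (b.smul (mul_pos h (neg_pos.2 x0))).add_eff
      (Oe.eff_vert hK M.term.big M.des u r) using 1
    module
  · simpa using d
  · refine (M.nbig ((d.add (dB.smul (x * c))).big ?_)).elim
    convert (b.smul x0).add_eff (.of_nonneg (Pr.hart res' hK M.term.smp M.term.big u.1
      fun Q o => u.2 Q o ▸ P.δ_nonneg Q)) using 1
    module

/-- the functions of the base on a vertical divisor are algebraic over the subfields with forms -/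
theorem valg (hK : FF K (n + 2)) (M : MFS (n + 1) Λ B Γ) (o : On (n + 1) Λ P) (r : Rep B G)
    (h : 0 < G P) {L : IntermediateField ℂ P.κ} (hL : FF L n) (hp : pg L n ≠ 0) {f : P.κ}
    (hf : f ∈ fld (res P B)) : IsAlgebraic L f := by
  by_contra t
  have hκ := Gm.ff_κ P hK
  obtain ⟨ε, -, u⟩ := M.qf P o
  obtain ⟨c, a⟩ := M.neg
  have s := res_smp hK P M.smp
  obtain ⟨e, e0, e1⟩ := (mem_fld s.eff).1 hf
  obtain ⟨Z, z0, z1⟩ := ((Lc.NU.of_pg hp).wedge hL hκ t).add (e1.smul (div_pos two_pos e0).le)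
  have d := M.term.hull.1.add u.1
  have p := add_mem z1 (a1 _ K hK P _ d.car).2.1
  have b := (on_iff_big hK P M.term.smp.nef).1 o
  have q : Z - dsc (n + 1) (adj (n + 1) P (Γ + ε)) - (res P (Γ + ε) + (2 / e) • res P B) ∈
      Prn P.κ := by
    convert p using 1
    rw [dsc, smul_sub, smul_smul, div_mul_cancel₀ _ e0.ne']
    abel
  have w := Pr.hart res' hκ (res_smp hK P d.smp) b
    (((res_dsc hK P d).add ((res_dsc hK P M.des).smul _)).congr q) fun Q v =>
      sub_nonneg.2 ((Oe.adj_bdy a3 hK M.term o u Q v).trans (z0 Q))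
  have dB := Dsc.refl s
  refine Oe.not_on hK M.smp.nef M.nbig r h ((on_iff_big hK P M.smp.nef).2
    ((((dB.smul c).add (res_dsc hK P (vdsc hK M u r h))).add (dB.smul (2 / e))).big ?_))
  convert ((res_ampOn hK P a).big_iff.1 b).add_eff (Rep.eff ⟨w, q⟩) using 1
  rw [res_sub hK P ((Car K).smul_mem _ M.smp.car) M.term.hull.1.car, res_smul hK P _ M.smp.car,
    res_add hK P M.term.hull.1.car u.1.car]
  abel

theorem core (x : Sc.Xc H Γ' Y ΓY β P) (am : AmpOn Y (c • H - β)) (M : MFS 3 Λ B Γ)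
    (on : ∀ Q, On 3 Y Q → On 3 Λ Q) (r : Rep B G) (h : 0 < G P) (hp : pg (fld (res P H)) 2 ≠ 0)
    (sm : ∀ X, Dsc Λ X → (∀ Q, On 3 Y Q → β Q = X Q) → ∀ w, Hor (fld (res P H)) w →
      res P β w = res P X w) : False := by
  have hK := x.fk
  have hκ := Gm.ff_κ P hK
  have o := (x.xtr.on P).2 (.inr rfl)
  obtain ⟨ε, -, u⟩ := M.qf P (on P o)
  obtain ⟨a, -, a2⟩ := (res_dsc hK P (vdsc hK M u r h)).down hκ fun f hf =>
    cld_fld _ f (valg hK M (on P o) r h x.ff hp hf)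
  obtain ⟨b, -, b2⟩ := (Dsc.refl (res_smp hK P x.xtr.smp)).down hκ le_rfl
  have k := fld_le_of_hor (β := res P (c • H - β)) hκ (cld_fld _)
    (sub_mem (Submodule.smul_mem _ c b2) a2) fun w hw => by
      have z : ∀ b : BD (fld (res P H)), pb (inc _) b w = 0 := hw.trv.pb
      rw [res_sub hK P ((Car K).smul_mem _ x.xtr.smp.car) x.hull.1.car,
        res_smul hK P _ x.xtr.smp.car]
      simp [z, sm ε u.1 (fun Q v => (x.hull.2 Q v).trans (u.2 Q (on Q v)).symm) w hw]
  rw [(Sc.big_res hK am o).fld_eq, top_le_iff, fld_eq_top_iff hκ] at k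
  exact absurd (x.cd.symm.trans k) (by norm_num)

theorem ver' : VER := fun _ _ _ hK _ _ _ _ _ _ M _ _ d _ v u =>
  let ⟨_, r, h⟩ := Oe.vert M.smp.eff fun k => v fun a ha => k a (d.fld_le ha)
  vdsc hK M u r h

/-- **ONE** -/
theorem one_of (hT : Mm.TRM) : ONE := by
  intro K _ _ hK R A Λ B Γ E h _ i j P _ ei ej v cd L hL hp rl
  obtain ⟨-, Y, ΓY, x⟩ := h.ext i P ei
  obtain ⟨c, β, u, am⟩ := x.anti
  have y : Sc.Xc (Λ i) (Γ i) Y ΓY β P := ⟨hK, (h.mfs i).term, x, u, cd⟩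
  obtain rfl := Sc.xl_of (Sc.xq_of fld' hT (Sc.xa_of hT)) K _ _ _ _ _ P y L hL hp rl
  obtain ⟨G, r, g⟩ := Oe.vert (h.mfs j).smp.eff fun k => v fun a ha => k a ((h.down j).fld_le ha)
  exact core y am (h.mfs j) (fun Q o => by
    simpa [ej] using (h.zero j Q).1 ((Sm.on_link h ei x Q).1 o)) r g hp
    fun X d e w hw => Sm.smn_link hT h ei y hp j u.1 d e hw

end Vale.Agent.P287D.Vt
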